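import Mathlib

/-!
P225, module A: covariant differentiation of vector fields on a normed space, for a connection
given by a field of bilinear maps.
-/

noncomputable section

namespace Vale.Agent.P225

open Filter
open scoped Topology

variable {F : Type*} [NormedAddCommGroup F] [NormedSpace ℝ F]

/-- Covariant derivative with connection coefficients `Γ`. -/
def cov (Γ : F → F →L[ℝ] F →L[ℝ] F) (X Y : F → F) (y : F) : F :=
  fderiv ℝ Y y (X y) + Γ y (X y) (Y y)

/-- Lie bracket of vector fields. -/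
def brkt (X Y : F → F) (y : F) : F := fderiv ℝ Y y (X y) - fderiv ℝ X y (Y y)

variable {Γ : F → F →L[ℝ] F →L[ℝ] F} {x : F}

theorem cov_sub_cov (hs : ∀ u v, Γ x u v = Γ x v u) (X Y : F → F) :
    cov Γ X Y x - cov Γ Y X x = brkt X Y x := by
  simp only [cov, brkt, hs (Y x) (X x)]
  abel

/-- The curvature of `Γ` in terms of iterated covariant derivatives. -/
theorem cov_curvature (hΓ : DifferentiableAt ℝ Γ x) (hs : ∀ u v, Γ x u v = Γ x v u)
    {X Y Z : F → F} (hX : DifferentiableAt ℝ X x) (hY : DifferentiableAt ℝ Y x)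
    (hZ : DifferentiableAt ℝ Z x) (hdZ : DifferentiableAt ℝ (fderiv ℝ Z) x)
    (hsymm : IsSymmSndFDerivAt ℝ Z x) :
    cov Γ X (cov Γ Y Z) x - cov Γ Y (cov Γ X Z) x - cov Γ (brkt X Y) Z x =
      fderiv ℝ Γ x (X x) (Y x) (Z x) - fderiv ℝ Γ x (Y x) (X x) (Z x) +
        Γ x (X x) (Γ x (Y x) (Z x)) - Γ x (Y x) (Γ x (X x) (Z x)) := by
  have key : ∀ (A : F → F), DifferentiableAt ℝ A x → ∀ h,
      fderiv ℝ (cov Γ A Z) x h =
        fderiv ℝ (fderiv ℝ Z) x h (A x) + fderiv ℝ Z x (fderiv ℝ A x h) +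
          (fderiv ℝ Γ x h (A x) (Z x) + Γ x (fderiv ℝ A x h) (Z x) +
            Γ x (A x) (fderiv ℝ Z x h)) := by
    intro A hA h
    have h1 := hdZ.hasFDerivAt.clm_apply hA.hasFDerivAt
    have h2 := (hΓ.hasFDerivAt.clm_apply hA.hasFDerivAt).clm_apply hZ.hasFDerivAt
    have h3 : HasFDerivAt (cov Γ A Z) _ x := h1.add h2
    rw [h3.fderiv]
    simp
    abel
  simp only [cov, brkt]
  rw [key Y hY, key X hX]
  rw [hsymm (Y x) (X x)]
  simp only [map_add, map_sub, sub_apply,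
    hs (Y x) (fderiv ℝ Z x (X x)), hs (X x) (fderiv ℝ Z x (Y x))]
  abel

variable {ι : Type*} [Fintype ι]

/-- Derivations rule: only the germ of the differentiated field matters. -/
theorem cov_sum_smul {X Y : F → F} {f : ι → F → ℝ} {E : ι → F → F}
    (hY : Y =ᶠ[𝓝 x] fun y => ∑ d, f d y • E d y) (hf : ∀ d, DifferentiableAt ℝ (f d) x)
    (hE : ∀ d, DifferentiableAt ℝ (E d) x) :
    cov Γ X Y x = ∑ d, (fderiv ℝ (f d) x (X x) • E d x + f d x • cov Γ X (E d) x) := by
  have hd : HasFDerivAt Y _ x :=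
    (HasFDerivAt.fun_sum fun d (_ : d ∈ Finset.univ) =>
      (hf d).hasFDerivAt.smul (hE d).hasFDerivAt).congr_of_eventuallyEq hY
  rw [cov, hd.fderiv, hY.eq_of_nhds]
  simp only [map_sum, map_smul, cov, smul_add, Finset.sum_add_distrib, FunLike.coe_sum,
    Finset.sum_apply, add_apply, smul_apply,
    ContinuousLinearMap.smulRight_apply]
  abel

/-- Linearity in the direction. -/
theorem cov_dir {X Z : F → F} {w : ι → ℝ} {E : ι → F → F} (hX : X x = ∑ d, w d • E d x) :
    cov Γ X Z x = ∑ d, w d • cov Γ (E d) Z x := by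
  simp only [cov, hX, map_sum, map_smul, FunLike.coe_sum, Finset.sum_apply,
    smul_apply, smul_add, Finset.sum_add_distrib]

/-- Metric compatibility. -/
theorem fderiv_metric_cov {G : F → F →L[ℝ] F →L[ℝ] ℝ} (hG : DifferentiableAt ℝ G x)
    (hc : ∀ h u v, fderiv ℝ G x h u v = G x (Γ x h u) v + G x u (Γ x h v))
    (X : F → F) {Y Z : F → F} (hY : DifferentiableAt ℝ Y x) (hZ : DifferentiableAt ℝ Z x) :
    fderiv ℝ (fun y => G y (Y y) (Z y)) x (X x) =
      G x (cov Γ X Y x) (Z x) + G x (Y x) (cov Γ X Z x) := by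
  have h2 : HasFDerivAt (fun y => G y (Y y) (Z y)) _ x :=
    (hG.hasFDerivAt.clm_apply hY.hasFDerivAt).clm_apply hZ.hasFDerivAt
  rw [h2.fderiv]
  simp [cov, hc]
  ring

end Vale.Agent.P225
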