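import Vale.Agent.P225.Defs
import Vale.Agent.P225.Geom.Frame.Calc

/-!
P225, module A: the coordinate Christoffel symbols as a connection, and symmetry of the
coordinate Ricci tensor.
-/

noncomputable section

namespace Vale.Agent.P225

open scoped ContDiff Topology
open Set Matrix Filter

/-- The elementary bilinear form `(u, v) ↦ u i * v j`. -/
def coordForm (i j : Fin 7) : Pt →L[ℝ] Pt →L[ℝ] ℝ :=
  (ContinuousLinearMap.proj (R := ℝ) (φ := fun _ : Fin 7 => ℝ) i).smulRight
    (ContinuousLinearMap.proj (R := ℝ) (φ := fun _ : Fin 7 => ℝ) j)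

@[simp]
theorem coordForm_apply (i j : Fin 7) (u v : Pt) : coordForm i j u v = u i * v j := by
  simp [coordForm]

/-- The elementary bilinear map `(u, v) ↦ (u i * v j) • e_l`. -/
def coordMap (l i j : Fin 7) : Pt →L[ℝ] Pt →L[ℝ] Pt :=
  (ContinuousLinearMap.proj (R := ℝ) (φ := fun _ : Fin 7 => ℝ) i).smulRight
    ((ContinuousLinearMap.proj (R := ℝ) (φ := fun _ : Fin 7 => ℝ) j).smulRight (Pi.single l 1))

@[simp]
theorem coordMap_apply (l i j : Fin 7) (u v : Pt) (m : Fin 7) :
    coordMap l i j u v m = u i * v j * Pi.single (M := fun _ : Fin 7 => ℝ) l 1 m := by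
  simp [coordMap, mul_assoc]

/-- A matrix as a bilinear form. -/
def formMap (A : Matrix (Fin 7) (Fin 7) ℝ) : Pt →L[ℝ] Pt →L[ℝ] ℝ :=
  ∑ i, ∑ j, A i j • coordForm i j

theorem formMap_apply (A : Matrix (Fin 7) (Fin 7) ℝ) (u v : Pt) :
    formMap A u v = ∑ i, ∑ j, A i j * u i * v j := by
  simp [formMap, mul_assoc]

theorem formMap_single (A : Matrix (Fin 7) (Fin 7) ℝ) (i j : Fin 7) :
    formMap A (Pi.single i 1) (Pi.single j 1) = A i j := by
  simp [formMap_apply, Pi.single_apply]

/-- The Christoffel symbols as a field of bilinear maps. -/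
def chrMap (g : MetricField) (x : Pt) : Pt →L[ℝ] Pt →L[ℝ] Pt :=
  ∑ l, ∑ i, ∑ j, christoffel g l i j x • coordMap l i j

theorem chrMap_apply (g : MetricField) (x u v : Pt) (l : Fin 7) :
    chrMap g x u v l = ∑ i, ∑ j, christoffel g l i j x * u i * v j := by
  simp [chrMap, Pi.single_apply, mul_assoc, Finset.sum_ite_eq]

variable {g : MetricField} {V : Set Pt} {x : Pt}

-- Instance search does not find these two on its own.
theorem isBoundedSMul_form : IsBoundedSMul ℝ (Pt →L[ℝ] Pt →L[ℝ] ℝ) :=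
  @NormedSpace.toIsBoundedSMul ℝ (Pt →L[ℝ] Pt →L[ℝ] ℝ) _ _ _

theorem isBoundedSMul_map : IsBoundedSMul ℝ (Pt →L[ℝ] Pt →L[ℝ] Pt) :=
  @NormedSpace.toIsBoundedSMul ℝ (Pt →L[ℝ] Pt →L[ℝ] Pt) _ _ _

attribute [local instance] isBoundedSMul_form isBoundedSMul_map

theorem metric_symm (hp : ∀ x ∈ V, (g x).PosDef) (hx : x ∈ V) (i j : Fin 7) :
    g x i j = g x j i := by
  simpa using ((hp x hx).1.apply i j).symm

theorem metric_det_isUnit (hp : ∀ x ∈ V, (g x).PosDef) (hx : x ∈ V) : IsUnit (g x).det :=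
  (hp x hx).det_pos.ne'.isUnit

theorem inv_metric_symm (hp : ∀ x ∈ V, (g x).PosDef) (hx : x ∈ V) (i j : Fin 7) :
    (g x)⁻¹ i j = (g x)⁻¹ j i := by
  simpa using ((hp x hx).1.inv.apply i j).symm

theorem diffAt_of (hV : IsOpen V) {E : Type*} [NormedAddCommGroup E] [NormedSpace ℝ E]
    {f : Pt → E} (hf : ContDiffOn ℝ ∞ f V) (hx : x ∈ V) : DifferentiableAt ℝ f x :=
  (hf.contDiffAt (hV.mem_nhds hx)).differentiableAt (by norm_num)

theorem contDiffOn_pd (hV : IsOpen V) {f : Pt → ℝ} (hf : ContDiffOn ℝ ∞ f V) (i : Fin 7) :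
    ContDiffOn ℝ ∞ (pd f i) V :=
  (hf.fderiv_of_isOpen hV le_rfl).clm_apply contDiffOn_const

theorem contDiffOn_det {n : ℕ} {A : Pt → Matrix (Fin n) (Fin n) ℝ}
    (hA : ∀ i j, ContDiffOn ℝ ∞ (fun y => A y i j) V) :
    ContDiffOn ℝ ∞ (fun y => (A y).det) V := by
  simp only [Matrix.det_apply']
  exact ContDiffOn.sum fun σ _ => contDiffOn_const.mul (contDiffOn_prod fun i _ => hA _ _)

theorem contDiffOn_inv_metric (hg : ∀ i j, ContDiffOn ℝ ∞ (fun x => g x i j) V)
    (hp : ∀ x ∈ V, (g x).PosDef) (i j : Fin 7) : ContDiffOn ℝ ∞ (fun y => (g y)⁻¹ i j) V := by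
  simp only [Matrix.inv_def, Matrix.smul_apply, Ring.inverse_eq_inv', smul_eq_mul,
    Matrix.adjugate_apply]
  refine (ContDiffOn.inv (contDiffOn_det hg) fun y hy => (hp y hy).det_pos.ne').mul
    (contDiffOn_det fun a b => ?_)
  by_cases h : a = j
  · subst h
    simpa using contDiffOn_const
  · simpa [Matrix.updateRow_apply, h] using hg a b

theorem contDiffOn_christoffel (hV : IsOpen V) (hg : ∀ i j, ContDiffOn ℝ ∞ (fun x => g x i j) V)
    (hp : ∀ x ∈ V, (g x).PosDef) (k i j : Fin 7) : ContDiffOn ℝ ∞ (christoffel g k i j) V := by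
  unfold christoffel
  exact contDiffOn_const.mul (ContDiffOn.sum fun l _ => (contDiffOn_inv_metric hg hp k l).mul
    (((contDiffOn_pd hV (hg j l) i).add (contDiffOn_pd hV (hg i l) j)).sub
      (contDiffOn_pd hV (hg i j) l)))

theorem pd_metric_symm (hV : IsOpen V) (hp : ∀ x ∈ V, (g x).PosDef) (hx : x ∈ V) (i j m : Fin 7) :
    pd (fun y => g y i j) m x = pd (fun y => g y j i) m x := by
  have : (fun y => g y i j) =ᶠ[𝓝 x] fun y => g y j i :=
    eventually_of_mem (hV.mem_nhds hx) fun y hy => metric_symm hp hy i j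
  simp [pd, this.fderiv_eq]

theorem christoffel_symm (hV : IsOpen V) (hp : ∀ x ∈ V, (g x).PosDef) (hx : x ∈ V)
    (k i j : Fin 7) : christoffel g k i j x = christoffel g k j i x := by
  simp only [christoffel, pd_metric_symm hV hp hx i j]
  congr 1
  refine Finset.sum_congr rfl fun l _ => ?_
  ring

theorem chrMap_symm (hV : IsOpen V) (hp : ∀ x ∈ V, (g x).PosDef) (hx : x ∈ V) (u v : Pt) :
    chrMap g x u v = chrMap g x v u := by
  ext l
  simp only [chrMap_apply]
  rw [Finset.sum_comm]
  refine Finset.sum_congr rfl fun i _ => Finset.sum_congr rfl fun j _ => ?_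
  rw [christoffel_symm hV hp hx]
  ring

theorem contDiffOn_chrMap (hV : IsOpen V) (hg : ∀ i j, ContDiffOn ℝ ∞ (fun x => g x i j) V)
    (hp : ∀ x ∈ V, (g x).PosDef) : ContDiffOn ℝ ∞ (chrMap g) V :=
  ContDiffOn.sum fun l _ => ContDiffOn.sum fun i _ => ContDiffOn.sum fun j _ =>
    (contDiffOn_christoffel hV hg hp l i j).smul contDiffOn_const

theorem contDiffOn_formMap (hg : ∀ i j, ContDiffOn ℝ ∞ (fun x => g x i j) V) :
    ContDiffOn ℝ ∞ (fun y => formMap (g y)) V :=
  ContDiffOn.sum fun i _ => ContDiffOn.sum fun j _ => (hg i j).smul contDiffOn_const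

theorem fderiv_chrMap_apply (hV : IsOpen V) (hg : ∀ i j, ContDiffOn ℝ ∞ (fun x => g x i j) V)
    (hp : ∀ x ∈ V, (g x).PosDef) (hx : x ∈ V) (h u v : Pt) (l : Fin 7) :
    fderiv ℝ (chrMap g) x h u v l =
      ∑ i, ∑ j, fderiv ℝ (christoffel g l i j) x h * u i * v j := by
  have hd : HasFDerivAt (chrMap g) _ x :=
    HasFDerivAt.fun_sum fun l (_ : l ∈ Finset.univ) => HasFDerivAt.fun_sum
      fun i (_ : i ∈ Finset.univ) => HasFDerivAt.fun_sum fun j (_ : j ∈ Finset.univ) =>
        (diffAt_of hV (contDiffOn_christoffel hV hg hp l i j) hx).hasFDerivAt.smul_const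
          (coordMap l i j)
  rw [hd.fderiv]
  simp [Pi.single_apply, mul_assoc, Finset.sum_ite_eq]

theorem fderiv_formMap_apply (hV : IsOpen V) (hg : ∀ i j, ContDiffOn ℝ ∞ (fun x => g x i j) V)
    (hx : x ∈ V) (h u v : Pt) :
    fderiv ℝ (fun y => formMap (g y)) x h u v =
      ∑ i, ∑ j, fderiv ℝ (fun y => g y i j) x h * u i * v j := by
  have hd : HasFDerivAt (fun y => formMap (g y)) _ x :=
    HasFDerivAt.fun_sum fun i (_ : i ∈ Finset.univ) => HasFDerivAt.fun_sum
      fun j (_ : j ∈ Finset.univ) =>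
        (diffAt_of hV (hg i j) hx).hasFDerivAt.smul_const (coordForm i j)
  rw [hd.fderiv]
  simp [mul_assoc]

/-- A bilinear form is determined by its coordinates. -/
theorem bil_expand (B : Pt →L[ℝ] Pt →L[ℝ] ℝ) (u v : Pt) :
    B u v = ∑ i, ∑ j, B (Pi.single i 1) (Pi.single j 1) * u i * v j := by
  conv_lhs => rw [pi_eq_sum_univ' u, pi_eq_sum_univ' v]
  simp only [map_sum, map_smul, FunLike.coe_sum, Finset.sum_apply, _root_.smul_apply,
    smul_eq_mul, Finset.mul_sum]
  rw [Finset.sum_comm]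
  exact Finset.sum_congr rfl fun i _ => Finset.sum_congr rfl fun j _ => by ring

theorem chrMap_single (g : MetricField) (x : Pt) (i j l : Fin 7) :
    chrMap g x (Pi.single i 1) (Pi.single j 1) l = christoffel g l i j x := by
  simp [chrMap_apply, Pi.single_apply]

/-- Lowering the index of a Christoffel symbol. -/
theorem sum_metric_christoffel (hp : ∀ x ∈ V, (g x).PosDef) (hx : x ∈ V) (m i j : Fin 7) :
    ∑ k, g x m k * christoffel g k i j x =
      (1 / 2) * (pd (fun y => g y j m) i x + pd (fun y => g y i m) j x -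
        pd (fun y => g y i j) m x) := by
  simp only [christoffel, Finset.mul_sum]
  rw [Finset.sum_comm]
  rw [Finset.sum_eq_single m]
  · have h1 : ∑ k, g x m k * (g x)⁻¹ k m = 1 := by
      rw [← Matrix.mul_apply, Matrix.mul_nonsing_inv _ (metric_det_isUnit hp hx), Matrix.one_apply_eq]
    calc _ = (∑ k, g x m k * (g x)⁻¹ k m) * ((1 / 2) * (pd (fun y => g y j m) i x +
          pd (fun y => g y i m) j x - pd (fun y => g y i j) m x)) := by
          rw [Finset.sum_mul]
          exact Finset.sum_congr rfl fun k _ => by ring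
      _ = _ := by rw [h1, one_mul]
  · intro l _ hl
    have h0 : ∑ k, g x m k * (g x)⁻¹ k l = 0 := by
      rw [← Matrix.mul_apply, Matrix.mul_nonsing_inv _ (metric_det_isUnit hp hx),
        Matrix.one_apply_ne (Ne.symm hl)]
    calc _ = (∑ k, g x m k * (g x)⁻¹ k l) * ((1 / 2) * (pd (fun y => g y j l) i x +
          pd (fun y => g y i l) j x - pd (fun y => g y i j) l x)) := by
          rw [Finset.sum_mul]
          exact Finset.sum_congr rfl fun k _ => by ring
      _ = 0 := by rw [h0, zero_mul]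
  · simp

/-- The connection is compatible with the metric. -/
theorem formMap_compat (hV : IsOpen V) (hg : ∀ i j, ContDiffOn ℝ ∞ (fun x => g x i j) V)
    (hp : ∀ x ∈ V, (g x).PosDef) (hx : x ∈ V) (h u v : Pt) :
    fderiv ℝ (fun y => formMap (g y)) x h u v =
      formMap (g x) (chrMap g x h u) v + formMap (g x) u (chrMap g x h v) := by
  suffices H : ∀ i, ∀ a b : Pt, fderiv ℝ (fun y => formMap (g y)) x (Pi.single i 1) a b =
      formMap (g x) (chrMap g x (Pi.single i 1) a) b +
        formMap (g x) a (chrMap g x (Pi.single i 1) b) by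
    rw [pi_eq_sum_univ' h]
    simp only [map_sum, map_smul, FunLike.coe_sum, Finset.sum_apply, _root_.smul_apply, smul_eq_mul,
      H, mul_add, Finset.sum_add_distrib]
  intro i a b
  rw [bil_expand (fderiv ℝ (fun y => formMap (g y)) x (Pi.single i 1)) a b,
    show formMap (g x) (chrMap g x (Pi.single i 1) a) b +
      formMap (g x) a (chrMap g x (Pi.single i 1) b) =
        ((formMap (g x)).comp (chrMap g x (Pi.single i 1)) +
          ((formMap (g x)).flip.comp (chrMap g x (Pi.single i 1))).flip) a b by simp,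
    bil_expand (((formMap (g x)).comp (chrMap g x (Pi.single i 1)) +
          ((formMap (g x)).flip.comp (chrMap g x (Pi.single i 1))).flip)) a b]
  refine Finset.sum_congr rfl fun j _ => Finset.sum_congr rfl fun m _ => ?_
  congr 2
  have e1 : formMap (g x) (chrMap g x (Pi.single i 1) (Pi.single j 1)) (Pi.single m 1) =
      ∑ k, g x m k * christoffel g k i j x := by
    rw [formMap_apply]
    refine Finset.sum_congr rfl fun k _ => ?_
    simp [chrMap_single, Pi.single_apply, metric_symm hp hx k m]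
  have e2 : formMap (g x) (Pi.single j 1) (chrMap g x (Pi.single i 1) (Pi.single m 1)) =
      ∑ k, g x j k * christoffel g k i m x := by
    simp [formMap_apply, chrMap_single, Pi.single_apply]
  simp only [_root_.add_apply, ContinuousLinearMap.comp_apply,
    ContinuousLinearMap.flip_apply, e1, e2, sum_metric_christoffel hp hx,
    fderiv_formMap_apply hV hg hx]
  simp [Pi.single_apply, pd]
  have s1 := pd_metric_symm hV hp hx m j i
  have s2 := pd_metric_symm hV hp hx i j m
  have s3 := pd_metric_symm hV hp hx i m j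
  simp only [pd] at s1 s2 s3
  linarith

theorem sum_christoffel_trace (hp : ∀ x ∈ V, (g x).PosDef) (hx : x ∈ V)
    (i : Fin 7) : ∑ k, christoffel g k i k x =
      (1 / 2) * ∑ k, ∑ l, (g x)⁻¹ k l * pd (fun y => g y k l) i x := by
  simp only [christoffel, mul_sub, mul_add, Finset.sum_sub_distrib, Finset.sum_add_distrib,
    Finset.mul_sum]
  have : ∑ k, ∑ l, 1 / 2 * ((g x)⁻¹ k l * pd (fun y => g y i k) l x) =
      ∑ k, ∑ l, 1 / 2 * ((g x)⁻¹ k l * pd (fun y => g y i l) k x) := by
    rw [Finset.sum_comm]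
    exact Finset.sum_congr rfl fun k _ => Finset.sum_congr rfl fun l _ => by
      rw [inv_metric_symm hp hx l k]
  rw [this]
  ring

theorem pd_pd_comm (hV : IsOpen V) {f : Pt → ℝ} (hf : ContDiffOn ℝ ∞ f V) (hx : x ∈ V)
    (i j : Fin 7) : pd (pd f i) j x = pd (pd f j) i x := by
  have hd : DifferentiableAt ℝ (fderiv ℝ f) x :=
    diffAt_of hV (hf.fderiv_of_isOpen hV le_rfl) hx
  have hs : IsSymmSndFDerivAt ℝ f x :=
    (hf.contDiffAt (hV.mem_nhds hx)).isSymmSndFDerivAt (by simp; norm_cast)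
  have : ∀ a b, pd (pd f a) b x =
      fderiv ℝ (fderiv ℝ f) x (Pi.single b 1) (Pi.single a 1) := fun a b => by
    show fderiv ℝ (fun y => fderiv ℝ f y (Pi.single a 1)) x (Pi.single b 1) = _
    rw [(hd.hasFDerivAt.clm_apply (hasFDerivAt_const (Pi.single a 1) x)).fderiv]
    simp
  rw [this, this, hs]

theorem sum_pd_christoffel_trace_symm (hV : IsOpen V)
    (hg : ∀ i j, ContDiffOn ℝ ∞ (fun x => g x i j) V) (hp : ∀ x ∈ V, (g x).PosDef) (hx : x ∈ V)
    (i j : Fin 7) :
    ∑ k, pd (christoffel g k i k) j x = ∑ k, pd (christoffel g k j k) i x := by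
  let D : Fin 7 → Matrix (Fin 7) (Fin 7) ℝ := fun m a b => pd (fun y => g y a b) m x
  let H : Fin 7 → Matrix (Fin 7) (Fin 7) ℝ := fun m a b => pd (fun y => (g y)⁻¹ a b) m x
  have hP : ∀ a b, DifferentiableAt ℝ (fun y => (g y)⁻¹ a b) x := fun a b =>
    diffAt_of hV (contDiffOn_inv_metric hg hp a b) hx
  have hG : ∀ a b, DifferentiableAt ℝ (fun y => g y a b) x := fun a b => diffAt_of hV (hg a b) hx
  have hH : ∀ m, H m = -((g x)⁻¹ * D m * (g x)⁻¹) := by
    intro m
    have key : D m * (g x)⁻¹ + g x * H m = 0 := by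
      ext a b
      have hd : HasFDerivAt (fun y => ∑ l, g y a l * (g y)⁻¹ l b) _ x :=
        HasFDerivAt.fun_sum fun l (_ : l ∈ Finset.univ) =>
          (hG a l).hasFDerivAt.mul (hP l b).hasFDerivAt
      have hc : (fun y => ∑ l, g y a l * (g y)⁻¹ l b) =ᶠ[𝓝 x]
          fun _ => (1 : Matrix (Fin 7) (Fin 7) ℝ) a b :=
        eventually_of_mem (hV.mem_nhds hx) fun y hy => by
          show ∑ l, g y a l * (g y)⁻¹ l b = _
          rw [← Matrix.mul_apply, Matrix.mul_nonsing_inv _ (metric_det_isUnit hp hy)]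
      have := hc.fderiv_eq (𝕜 := ℝ)
      rw [hd.fderiv, fderiv_const_apply] at this
      have := congrArg (fun T => T (Pi.single m 1)) this
      simp [Finset.sum_add_distrib] at this
      rw [Matrix.add_apply, Matrix.mul_apply, Matrix.mul_apply]
      simp [D, H, pd]
      rw [add_comm]
      convert this using 2
      exact Finset.sum_congr rfl fun l _ => by ring
    calc H m = (g x)⁻¹ * (g x * H m) := by
          rw [← Matrix.mul_assoc, Matrix.nonsing_inv_mul _ (metric_det_isUnit hp hx), Matrix.one_mul]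
      _ = _ := by rw [eq_neg_of_add_eq_zero_right key, Matrix.mul_neg, Matrix.mul_assoc]
  have e : ∀ a b, ∑ k, pd (christoffel g k a k) b x = (1 / 2) *
      (∑ k, ∑ l, H b k l * D a k l +
        ∑ k, ∑ l, (g x)⁻¹ k l * pd (pd (fun y => g y k l) a) b x) := by
    intro a b
    have h1 : ∑ k, pd (christoffel g k a k) b x = pd (fun y => ∑ k, christoffel g k a k y) b x := by
      simp only [pd]
      rw [fderiv_fun_sum fun k _ => diffAt_of hV (contDiffOn_christoffel hV hg hp k a k) hx]
      simp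
    have h2 : (fun y => ∑ k, christoffel g k a k y) =ᶠ[𝓝 x]
        fun y => (1 / 2) * ∑ k, ∑ l, (g y)⁻¹ k l * pd (fun z => g z k l) a y :=
      eventually_of_mem (hV.mem_nhds hx) fun y hy => sum_christoffel_trace hp hy a
    have hd : HasFDerivAt (fun y => (1 / 2) * ∑ k, ∑ l, (g y)⁻¹ k l * pd (fun z => g z k l) a y)
        _ x :=
      (HasFDerivAt.fun_sum fun k (_ : k ∈ Finset.univ) => HasFDerivAt.fun_sum
        fun l (_ : l ∈ Finset.univ) => (hP k l).hasFDerivAt.mul
          (diffAt_of hV (contDiffOn_pd hV (hg k l) a) hx).hasFDerivAt).const_mul (1 / 2 : ℝ)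
    rw [h1, show pd (fun y => ∑ k, christoffel g k a k y) b x =
      fderiv ℝ (fun y => (1 / 2) * ∑ k, ∑ l, (g y)⁻¹ k l * pd (fun z => g z k l) a y) x
        (Pi.single b 1) by rw [pd, h2.fderiv_eq], hd.fderiv]
    simp [H, D, pd, Finset.sum_add_distrib, mul_add]
    rw [add_comm]
    congr 2
    exact Finset.sum_congr rfl fun k _ => Finset.sum_congr rfl fun l _ => by ring
  have tr : ∀ a b, ∑ k, ∑ l, H b k l * D a k l =
      -Matrix.trace ((g x)⁻¹ * D b * ((g x)⁻¹ * D a)) := by
    intro a b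
    have : Matrix.trace (H b * D a) = ∑ k, ∑ l, H b k l * D a k l := by
      simp only [Matrix.trace, Matrix.diag_apply, Matrix.mul_apply]
      refine Finset.sum_congr rfl fun k _ => Finset.sum_congr rfl fun l _ => ?_
      congr 1
      exact pd_metric_symm hV hp hx l k a
    rw [← this, hH, Matrix.neg_mul, Matrix.trace_neg, Matrix.mul_assoc ((g x)⁻¹ * D b)]
  rw [e i j, e j i, tr i j, tr j i, Matrix.trace_mul_comm ((g x)⁻¹ * D i)]
  congr 2
  exact Finset.sum_congr rfl fun k _ => Finset.sum_congr rfl fun l _ => by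
    rw [pd_pd_comm hV (hg k l) hx]

/-- Symmetry of the coordinate Ricci tensor. -/
theorem ricci_symm (hV : IsOpen V) (hg : ∀ i j, ContDiffOn ℝ ∞ (fun x => g x i j) V)
    (hp : ∀ x ∈ V, (g x).PosDef) (hx : x ∈ V) (i j : Fin 7) :
    ricci g i j x = ricci g j i x := by
  have h0 : ∀ k, pd (christoffel g k i j) k x = pd (christoffel g k j i) k x := fun k => by
    have : christoffel g k i j =ᶠ[𝓝 x] christoffel g k j i :=
      eventually_of_mem (hV.mem_nhds hx) fun y hy => christoffel_symm hV hp hy k i j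
    simp [pd, this.fderiv_eq]
  have h1 : ∑ k, ∑ l, christoffel g k j l x * christoffel g l i k x =
      ∑ k, ∑ l, christoffel g k i l x * christoffel g l j k x := by
    rw [Finset.sum_comm]
    exact Finset.sum_congr rfl fun k _ => Finset.sum_congr rfl fun l _ => by ring
  simp only [ricci, h0, sum_pd_christoffel_trace_symm hV hg hp hx i j, Finset.sum_sub_distrib,
    h1, christoffel_symm hV hp hx _ i j]

/-- The curvature map `h ↦ R(h, Y) Z` of the coordinate connection. -/
def curvMap (g : MetricField) (x Y Z : Pt) : Pt →ₗ[ℝ] Pt where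
  toFun h := fderiv ℝ (chrMap g) x h Y Z - fderiv ℝ (chrMap g) x Y h Z +
    chrMap g x h (chrMap g x Y Z) - chrMap g x Y (chrMap g x h Z)
  map_add' u v := by simp; abel
  map_smul' r u := by simp [smul_sub, smul_add]

theorem pd_christoffel_symm (hV : IsOpen V) (hp : ∀ x ∈ V, (g x).PosDef) (hx : x ∈ V)
    (k p q m : Fin 7) : pd (christoffel g k p q) m x = pd (christoffel g k q p) m x := by
  have : christoffel g k p q =ᶠ[𝓝 x] christoffel g k q p :=
    eventually_of_mem (hV.mem_nhds hx) fun y hy => christoffel_symm hV hp hy k p q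
  simp [pd, this.fderiv_eq]

theorem sum_single_mul (k : Fin 7) (f : Fin 7 → ℝ) :
    ∑ i, f i * (Pi.single k 1 : Pt) i = f k := by
  simp [Pi.single_apply]

/-- The coordinate Ricci tensor is the trace of the curvature map. -/
theorem trace_curvMap (hV : IsOpen V) (hg : ∀ i j, ContDiffOn ℝ ∞ (fun x => g x i j) V)
    (hp : ∀ x ∈ V, (g x).PosDef) (hx : x ∈ V) (Y Z : Pt) :
    LinearMap.trace ℝ Pt (curvMap g x Y Z) = ∑ q, ∑ p, ricci g p q x * Y q * Z p := by
  have A1 : ∀ k, fderiv ℝ (chrMap g) x (Pi.single k 1) Y Z k =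
      ∑ q, ∑ p, pd (christoffel g k p q) k x * Y q * Z p := fun k => by
    rw [fderiv_chrMap_apply hV hg hp hx]
    exact Finset.sum_congr rfl fun q _ => Finset.sum_congr rfl fun p _ => by
      rw [pd_christoffel_symm hV hp hx k p q]; rfl
  have hY : ∀ k p, fderiv ℝ (christoffel g k k p) x Y =
      ∑ q, pd (christoffel g k p k) q x * Y q := fun k p => by
    conv_lhs => rw [pi_eq_sum_univ' Y]
    simp only [map_sum, map_smul, smul_eq_mul]
    exact Finset.sum_congr rfl fun q _ => by
      rw [pd_christoffel_symm hV hp hx k p k, mul_comm]; rfl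
  have A2 : ∀ k, fderiv ℝ (chrMap g) x Y (Pi.single k 1) Z k =
      ∑ q, ∑ p, pd (christoffel g k p k) q x * Y q * Z p := fun k => by
    rw [fderiv_chrMap_apply hV hg hp hx, Finset.sum_comm, Finset.sum_comm (f := fun q p =>
      pd (christoffel g k p k) q x * Y q * Z p)]
    refine Finset.sum_congr rfl fun p _ => ?_
    rw [← Finset.sum_mul, sum_single_mul, hY, Finset.sum_mul]
  have A3 : ∀ k, chrMap g x (Pi.single k 1) (chrMap g x Y Z) k =
      ∑ q, ∑ p, (∑ l, christoffel g k k l x * christoffel g l p q x) * Y q * Z p := fun k => by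
    rw [chrMap_apply, Finset.sum_comm]
    have : ∀ l, ∑ i, christoffel g k i l x * (Pi.single k 1 : Pt) i * chrMap g x Y Z l =
        ∑ q, ∑ p, christoffel g k k l x * christoffel g l p q x * Y q * Z p := fun l => by
      rw [← Finset.sum_mul, sum_single_mul, chrMap_apply, Finset.mul_sum]
      refine Finset.sum_congr rfl fun q _ => ?_
      rw [Finset.mul_sum]
      exact Finset.sum_congr rfl fun p _ => by rw [christoffel_symm hV hp hx l p q]; ring
    simp only [this, Finset.sum_mul]
    rw [Finset.sum_comm]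
    exact Finset.sum_congr rfl fun q _ => Finset.sum_comm
  have A4 : ∀ k, chrMap g x Y (chrMap g x (Pi.single k 1) Z) k =
      ∑ q, ∑ p, (∑ l, christoffel g k q l x * christoffel g l p k x) * Y q * Z p := fun k => by
    rw [chrMap_apply]
    refine Finset.sum_congr rfl fun q _ => ?_
    have : ∀ l, chrMap g x (Pi.single k 1) Z l = ∑ p, christoffel g l p k x * Z p := fun l => by
      rw [chrMap_apply, Finset.sum_comm]
      refine Finset.sum_congr rfl fun p _ => ?_
      rw [← Finset.sum_mul, sum_single_mul, christoffel_symm hV hp hx l p k]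
    simp only [this, Finset.mul_sum, Finset.sum_mul]
    rw [Finset.sum_comm]
    exact Finset.sum_congr rfl fun p _ => Finset.sum_congr rfl fun l _ => by ring
  rw [LinearMap.trace_eq_matrix_trace ℝ (Pi.basisFun ℝ (Fin 7))]
  simp only [Matrix.trace, Matrix.diag_apply, LinearMap.toMatrix_apply, Pi.basisFun_repr,
    Pi.basisFun_apply]
  have T1 : ∀ k, curvMap g x Y Z (Pi.single k 1) k = ∑ q, ∑ p,
      (pd (christoffel g k p q) k x - pd (christoffel g k p k) q x +
        (∑ l, christoffel g k k l x * christoffel g l p q x) -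
        ∑ l, christoffel g k q l x * christoffel g l p k x) * Y q * Z p := fun k => by
    show (fderiv ℝ (chrMap g) x (Pi.single k 1) Y Z - fderiv ℝ (chrMap g) x Y (Pi.single k 1) Z +
      chrMap g x (Pi.single k 1) (chrMap g x Y Z) -
      chrMap g x Y (chrMap g x (Pi.single k 1) Z) : Pt) k = _
    simp only [Pi.add_apply, Pi.sub_apply, A1, A2, A3, A4, add_mul, sub_mul,
      Finset.sum_add_distrib, Finset.sum_sub_distrib]
  simp only [T1]
  rw [Finset.sum_comm]
  refine Finset.sum_congr rfl fun q _ => ?_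
  rw [Finset.sum_comm]
  refine Finset.sum_congr rfl fun p _ => ?_
  rw [← Finset.sum_mul, ← Finset.sum_mul]
  congr 2
  simp only [ricci, Finset.sum_add_distrib, Finset.sum_sub_distrib]
  ring

end Vale.Agent.P225
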